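import Mathlib

/-!
Definitions for equations over groups: exponent sums, solvability, and the class of groups
that are locally residually (abelian-by-residually finite-p).
-/

namespace Vale.Agent.P174.Howie

universe u

variable {G : Type u} [Group G] {m n : ℕ}

/-- The homomorphism `G * F_n → ℤ^n` killing `G` and sending `x_j` to `e_j`. -/
def expHom (G : Type u) [Group G] (n : ℕ) :
    Monoid.Coprod G (FreeGroup (Fin n)) →* Multiplicative (Fin n → ℤ) :=
  Monoid.Coprod.lift 1 (FreeGroup.lift fun j => Multiplicative.ofAdd (Pi.single j 1))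

/-- The exponent-sum matrix of a system. -/
def expMatrix (w : Fin m → Monoid.Coprod G (FreeGroup (Fin n))) (i : Fin m) (j : Fin n) : ℤ :=
  Multiplicative.toAdd (expHom G n (w i)) j

/-- The system `w` has a solution in some group containing `G`. -/
def SolvableOver (w : Fin m → Monoid.Coprod G (FreeGroup (Fin n))) : Prop :=
  ∃ (H : Type u) (_ : Group H) (i : G →* H), Function.Injective i ∧
    ∃ h : Fin n → H, ∀ k, Monoid.Coprod.lift i (FreeGroup.lift h) (w k) = 1

/-- Every nontrivial element survives in a finite `p`-quotient. -/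
def ResiduallyFiniteP (p : ℕ) (Q : Type u) [Group Q] : Prop :=
  ∀ x : Q, x ≠ 1 → ∃ (P : Type u) (_ : Group P) (_ : Finite P),
    IsPGroup p P ∧ ∃ f : Q →* P, f x ≠ 1

/-- Every finitely generated subgroup is residually
(abelian by residually finite-`p`). -/
def LocallyAbelianByResP (p : ℕ) (G : Type u) [Group G] : Prop :=
  ∀ K : Subgroup G, K.FG → ∀ g : K, g ≠ 1 →
    ∃ (L : Type u) (_ : Group L) (A : Subgroup L) (_ : A.Normal),
      (∀ a ∈ A, ∀ b ∈ A, a * b = b * a) ∧ ResiduallyFiniteP p (L ⧸ A) ∧
        ∃ f : K →* L, f g ≠ 1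

end Vale.Agent.P174.Howie
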