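import Vale.Agent.P174.HowieGlobal

/-!
The groups over which all systems that are nonsingular mod `p` are solvable are closed under
extensions by residually finite-`p` groups (any kernel), under local and residual properties.
-/

namespace Vale.Agent.P174.Howie

open MonoidAlgebra Filter

universe u

variable {m n : ℕ}

/-- All systems over `G` with exponent-sum matrix of full row rank mod `p` are solvable over `G`. -/
def HowieModP (p : ℕ) (G : Type u) [Group G] : Prop :=
  ∀ (m n : ℕ) (w : Fin m → Monoid.Coprod G (FreeGroup (Fin n))),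
    LinearIndependent (ZMod p) (fun i j => (expMatrix w i j : ZMod p)) → SolvableOver w

/-- Matrices over `F_p H`, for residually finite-`p` `H`, are injective on rows if their
augmentation has independent rows. -/
theorem injective_residually_p_mod (p : ℕ) [Fact p.Prime] {H : Type u} [Group H]
    (hH : ResiduallyFiniteP p H) (J : Fin m → Fin n → MonoidAlgebra (ZMod p) H)
    (ε : MonoidAlgebra (ZMod p) H →+ ZMod p) (hε : ∀ (x : H) (k : ZMod p), ε (single x k) = k)
    (hrows : LinearIndependent (ZMod p) fun i j => ε (J i j))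
    (r : Fin m → MonoidAlgebra (ZMod p) H) (hr : ∀ j, ∑ i, r i * J i j = 0) : r = 0 := by
  classical
  funext i
  ext x
  by_cases hx : (r i).coeff x = 0
  · simp [hx]
  obtain ⟨P, _, _, hP, f, hf⟩ :=
    exists_separating p hH (Finset.univ.biUnion fun k => (r k).coeff.support)
  let g := (MonoidAlgebra.lift (ZMod p) (MonoidAlgebra (ZMod p) P) H
    ((MonoidAlgebra.of (ZMod p) P).comp f)).toRingHom
  have hg : ∀ (y : H) (k : ZMod p), g (single y k) = single (f y) k := by
    intro y k
    simp [g, MonoidAlgebra.lift_single]
  let δ : MonoidAlgebra (ZMod p) P →+ ZMod p :=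
    (MonoidAlgebra.lift (ZMod p) (ZMod p) P 1).toRingHom.toAddMonoidHom
  have hδ : ∀ (y : P) (k : ZMod p), δ (single y k) = k := by
    intro y k
    simp [δ, MonoidAlgebra.lift_single]
  have hδg : ∀ v, δ (g v) = ε v := by
    intro v
    have : δ.comp g.toAddMonoidHom = ε := by
      refine MonoidAlgebra.addMonoidHom_ext ?_
      intro y k
      simp [hg, hδ, hε]
    exact DFunLike.congr_fun this v
  have hzero := injective_finite_p p hP (fun a b => g (J a b)) δ hδ
    (by simpa [hδg] using hrows) (fun a => g (r a)) (fun j => by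
      have := congrArg g (hr j)
      simpa [map_sum, map_mul] using this)
  have h1 : (g (r i)).coeff (f x) = (r i).coeff x := by
    conv_lhs => rw [← MonoidAlgebra.sum_coeff_single (r i)]
    rw [Finsupp.sum, map_sum, coeff_sum, Finset.sum_apply']
    rw [Finset.sum_eq_single x]
    · simp [hg]
    · intro y hy hyx
      rw [hg, coeff_single, Finsupp.single_apply, if_neg]
      intro h
      exact hyx (hf y (Finset.mem_biUnion.2 ⟨i, Finset.mem_univ _, hy⟩) x
        (Finset.mem_biUnion.2 ⟨i, Finset.mem_univ _, Finsupp.mem_support_iff.2 hx⟩) h)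
    · intro h
      simp [Finsupp.notMem_support_iff.1 h]
  rw [← h1, show g (r i) = 0 from congrFun hzero i]
  rfl

section Infinite

variable (p : ℕ) (N : Type u) [Group N]

/-- The exponent vector mod `p` of an element of `N * F(I)`. -/
noncomputable def expI (I : Type*) :
    Monoid.Coprod N (FreeGroup I) →* Multiplicative (I →₀ ZMod p) :=
  Monoid.Coprod.lift 1 (FreeGroup.lift fun i => Multiplicative.ofAdd (Finsupp.single i 1))

variable {N}

/-- Every element of `N * F(I)` involves finitely many variables. -/
theorem exists_finset_variables {I : Type*} (z : Monoid.Coprod N (FreeGroup I)) :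
    ∃ S : Finset I, z ∈ (Monoid.Coprod.map (MonoidHom.id N)
      (FreeGroup.map (Subtype.val : S → I))).range := by
  classical
  have mono : ∀ (S T : Finset I), S ⊆ T →
      (Monoid.Coprod.map (MonoidHom.id N) (FreeGroup.map (Subtype.val : S → I))).range ≤
      (Monoid.Coprod.map (MonoidHom.id N) (FreeGroup.map (Subtype.val : T → I))).range := by
    rintro S T hST _ ⟨z, rfl⟩
    refine ⟨Monoid.Coprod.map (MonoidHom.id N) (FreeGroup.map fun s : S => (⟨s.1, hST s.2⟩ : T)) z,
      ?_⟩
    rw [← MonoidHom.comp_apply, Monoid.Coprod.map_comp_map]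
    congr 2
    ext; simp
  induction z using Monoid.Coprod.induction_on with
  | inl g => exact ⟨∅, Monoid.Coprod.inl g, by simp⟩
  | inr t =>
    induction t using FreeGroup.induction_on with
    | C1 => exact ⟨∅, 1, by simp⟩
    | of i => exact ⟨{i}, Monoid.Coprod.inr (FreeGroup.of ⟨i, by simp⟩), by simp⟩
    | inv_of i hi =>
      obtain ⟨S, hS⟩ := hi
      exact ⟨S, by rw [map_inv]; exact inv_mem hS⟩
    | mul a b ha hb =>
      obtain ⟨S, hS⟩ := ha
      obtain ⟨T, hT⟩ := hb
      exact ⟨S ∪ T, by
        rw [map_mul]
        exact mul_mem (mono S _ Finset.subset_union_left hS)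
          (mono T _ Finset.subset_union_right hT)⟩
  | mul a b ha hb =>
    obtain ⟨S, hS⟩ := ha
    obtain ⟨T, hT⟩ := hb
    exact ⟨S ∪ T, mul_mem (mono S _ Finset.subset_union_left hS)
      (mono T _ Finset.subset_union_right hT)⟩

/-- An infinite system whose exponent vectors are independent mod `p` is solvable over `N`. -/
theorem solve_infinite (hN : HowieModP p N) {I κ : Type u}
    (W : κ → Monoid.Coprod N (FreeGroup I))
    (hW : LinearIndependent (ZMod p) fun k => Multiplicative.toAdd (expI p N I (W k))) :
    ∃ (N' : Type u) (_ : Group N') (i : N →* N'), Function.Injective i ∧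
      ∃ v : I → N', ∀ k, Monoid.Coprod.lift i (FreeGroup.lift v) (W k) = 1 := by
  classical
  have hfin : ∀ t : Finset κ, ∃ (H : Type u) (_ : Group H) (f : N →* H), Function.Injective f ∧
      ∃ v : I → H, ∀ k ∈ t, Monoid.Coprod.lift f (FreeGroup.lift v) (W k) = 1 := by
    intro t
    choose S hS using fun k => exists_finset_variables (W k)
    let S0 : Finset I := t.biUnion S
    let emb : Fin S0.card → I := fun a => (S0.equivFin.symm a).1
    have hemb : Function.Injective emb :=
      Subtype.val_injective.comp S0.equivFin.symm.injective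
    have hlift : ∀ a : Fin t.card, ∃ z : Monoid.Coprod N (FreeGroup (Fin S0.card)),
        Monoid.Coprod.map (MonoidHom.id N) (FreeGroup.map emb) z = W (t.equivFin.symm a).1 := by
      intro a
      obtain ⟨z, hz⟩ := hS (t.equivFin.symm a).1
      have hsub : S (t.equivFin.symm a).1 ⊆ S0 :=
        Finset.subset_biUnion_of_mem S (t.equivFin.symm a).2
      refine ⟨Monoid.Coprod.map (MonoidHom.id N)
        (FreeGroup.map fun s => S0.equivFin ⟨s.1, hsub s.2⟩) z, ?_⟩
      rw [← hz, ← MonoidHom.comp_apply, Monoid.Coprod.map_comp_map]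
      congr 2
      ext; simp [emb]
    choose z hz using hlift
    let L : (Fin S0.card → ZMod p) →ₗ[ZMod p] (I →₀ ZMod p) :=
      Fintype.linearCombination (ZMod p) fun a => Finsupp.single (emb a) 1
    have hexp : ∀ a, Multiplicative.toAdd (expI p N I (W (t.equivFin.symm a).1)) =
        L fun j => (expMatrix z a j : ZMod p) := by
      intro a
      let ψ : Monoid.Coprod N (FreeGroup (Fin S0.card)) →* Multiplicative (I →₀ ZMod p) :=
        (AddMonoidHom.toMultiplicative (L.toAddMonoidHom.comp
          ((Int.castAddHom (ZMod p)).compLeft _))).comp (expHom N S0.card)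
      have : (expI p N I).comp (Monoid.Coprod.map (MonoidHom.id N) (FreeGroup.map emb)) = ψ := by
        refine Monoid.Coprod.hom_ext ?_ (FreeGroup.ext_hom _ _ fun j => ?_)
        · ext l; simp [ψ, expI, expHom]
        · simp [ψ, expI, expHom, L, Fintype.linearCombination_apply, Pi.single_apply, apply_ite,
            ite_smul]
      rw [← hz a]
      exact congrArg Multiplicative.toAdd (DFunLike.congr_fun this (z a))
    have hind : LinearIndependent (ZMod p) fun a j => (expMatrix z a j : ZMod p) := by
      refine LinearIndependent.of_comp L ?_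
      have := hW.comp (fun a : Fin t.card => (t.equivFin.symm a).1)
        (Subtype.val_injective.comp t.equivFin.symm.injective)
      convert this using 1
      funext a
      exact (hexp a).symm
    obtain ⟨H, _, f, hf, h, hh⟩ := hN _ _ z hind
    refine ⟨H, inferInstance, f, hf, Function.extend emb h 1, fun k hk => ?_⟩
    have hk' : W k = W (t.equivFin.symm (t.equivFin ⟨k, hk⟩)).1 := by simp
    rw [hk', ← hz]
    have : (Monoid.Coprod.lift f (FreeGroup.lift (Function.extend emb h 1))).comp
        (Monoid.Coprod.map (MonoidHom.id N) (FreeGroup.map emb)) =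
        Monoid.Coprod.lift f (FreeGroup.lift h) := by
      refine Monoid.Coprod.hom_ext ?_ (FreeGroup.ext_hom _ _ fun j => ?_)
      · ext l; simp
      · simp [hemb.extend_apply]
    rw [← hh (t.equivFin ⟨k, hk⟩)]
    exact DFunLike.congr_fun this _
  choose H hH f hf v hv using hfin
  let M : Subgroup (∀ t, H t) :=
    { carrier := {x | ∀ᶠ t in atTop, x t = 1}
      one_mem' := Eventually.of_forall fun _ => rfl
      mul_mem' := fun {a b} ha hb => (ha.and hb).mono fun t ht => by simp [ht.1, ht.2]
      inv_mem' := fun {a} ha => ha.mono fun t ht => by simp [ht] }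
  have hM : M.Normal := ⟨fun a ha g => ha.mono fun t ht => by simp [ht]⟩
  refine ⟨(∀ t, H t) ⧸ M, inferInstance, (QuotientGroup.mk' M).comp (MonoidHom.pi f), ?_,
    fun i => QuotientGroup.mk' M fun t => v t i, fun k => ?_⟩
  · rw [injective_iff_map_eq_one]
    intro g hg
    obtain ⟨t, ht⟩ := ((QuotientGroup.eq_one_iff _).1 hg : ∀ᶠ t in atTop, f t g = 1).exists
    exact hf t (ht.trans (map_one _).symm)
  · have hc : Monoid.Coprod.lift ((QuotientGroup.mk' M).comp (MonoidHom.pi f))
        (FreeGroup.lift fun i => QuotientGroup.mk' M fun t => v t i) =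
        (QuotientGroup.mk' M).comp
          (Monoid.Coprod.lift (MonoidHom.pi f) (FreeGroup.lift fun i t => v t i)) := by
      refine Monoid.Coprod.hom_ext ?_ (FreeGroup.ext_hom _ _ fun j => ?_)
      · ext l; simp
      · simp
    rw [hc, MonoidHom.comp_apply]
    refine (QuotientGroup.eq_one_iff _).2 (eventually_atTop.2 ⟨{k}, fun t ht => ?_⟩)
    have : (Pi.evalMonoidHom H t).comp
        (Monoid.Coprod.lift (MonoidHom.pi f) (FreeGroup.lift fun i t => v t i)) =
        Monoid.Coprod.lift (f t) (FreeGroup.lift (v t)) := by
      refine Monoid.Coprod.hom_ext ?_ (FreeGroup.ext_hom _ _ fun j => ?_)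
      · ext l; simp
      · simp
    exact (DFunLike.congr_fun this (W k)).trans (hv t k (Finset.singleton_subset_iff.1 ht))

end Infinite

section Extension

/-- Right translation on functions with values in any group. -/
def shiftGroup (H : Type*) [Group H] (M : Type*) [Group M] : H →* MulAut (H → M) where
  toFun s :=
    { toFun := fun f x => f (x * s)
      invFun := fun f x => f (x * s⁻¹)
      left_inv := fun f => by funext x; simp
      right_inv := fun f => by funext x; simp
      map_mul' := fun f g => rfl }
  map_one' := by ext f x; simp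
  map_mul' s t := by ext f x; simp [mul_assoc]

/-- Change of the value group in a wreath product. -/
def wreathMap {H : Type*} [Group H] {M M' : Type*} [Group M] [Group M'] (φ : M →* M') :
    (H → M) ⋊[shiftGroup H M] H →* (H → M') ⋊[shiftGroup H M'] H :=
  SemidirectProduct.map (φ.compLeft H) (MonoidHom.id H) fun _ => by ext; rfl

@[simp] theorem wreathMap_left {H : Type*} [Group H] {M M' : Type*} [Group M] [Group M']
    (φ : M →* M') (z : (H → M) ⋊[shiftGroup H M] H) (x : H) :
    (wreathMap φ z).left x = φ (z.left x) := rfl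

@[simp] theorem wreathMap_right {H : Type*} [Group H] {M M' : Type*} [Group M] [Group M']
    (φ : M →* M') (z : (H → M) ⋊[shiftGroup H M] H) : (wreathMap φ z).right = z.right := rfl

/-- Tuples over the group algebra as vectors indexed by pairs. -/
noncomputable def flat (p n : ℕ) (H : Type u) :
    (Fin n → MonoidAlgebra (ZMod p) H) →+ (Fin n × H →₀ ZMod p) :=
  ∑ j, ((Finsupp.mapDomain.addMonoidHom (Prod.mk j)).comp
    (coeffAddEquiv (R := ZMod p) (M := H)).toAddMonoidHom).comp (Pi.evalAddMonoidHom _ j)

theorem flat_apply (p n : ℕ) (H : Type u) (r : Fin n → MonoidAlgebra (ZMod p) H) (j : Fin n)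
    (y : H) : flat p n H r (j, y) = (r j).coeff y := by
  classical
  simp only [flat, AddMonoidHom.finsetSum_apply, AddMonoidHom.coe_comp, Function.comp_apply,
    Pi.evalAddMonoidHom_apply, Finsupp.mapDomain.addMonoidHom_apply, Finset.sum_apply',
    AddEquiv.toAddMonoidHom_eq_coe, AddMonoidHom.coe_coe]
  rw [Finset.sum_eq_single j]
  · exact Finsupp.mapDomain_apply (fun a b h => (Prod.ext_iff.1 h).2) _ y
  · intro i _ hij
    exact Finsupp.mapDomain_of_notMem_range _ _ (by rintro ⟨a, ha⟩; exact hij (Prod.ext_iff.1 ha).1)
  · simp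

/-- Extensions by residually finite-`p` groups, with an arbitrary kernel. -/
theorem HowieModP.extension (p : ℕ) [Fact p.Prime] {L : Type u} [Group L] (A : Subgroup L)
    [A.Normal] (hA : HowieModP p A) (hQ : ResiduallyFiniteP p (L ⧸ A)) : HowieModP p L := by
  classical
  intro m n w hw
  obtain ⟨H, _, hH, i, hi, h, hh⟩ := solve_residually_p p hQ
    (pushSystem (QuotientGroup.mk' A) w) (by rw [expMatrix_push]; exact hw)
  let γ : L →* H := i.comp (QuotientGroup.mk' A)
  have hsol : ∀ a, Monoid.Coprod.lift γ (FreeGroup.lift h) (w a) = 1 := fun a => by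
    rw [← lift_push]
    exact hh a
  have hkerA : γ.ker = A := by
    ext x
    simp [γ, MonoidHom.mem_ker, map_eq_one_iff i hi, QuotientGroup.eq_one_iff]
  let r : H → H := fun x => (QuotientGroup.mk x : H ⧸ γ.range).out
  have hr : ∀ (x : H) (l : L), r (x * γ l) = r x := fun x l => by
    simp only [r]
    rw [QuotientGroup.mk_mul_of_mem x (MonoidHom.mem_range.2 ⟨l, rfl⟩)]
  have hτ : ∀ x : H, ∃ l : L, γ l = (r x)⁻¹ * x := fun x =>
    MonoidHom.mem_range.1 (QuotientGroup.eq.1 (Quotient.out_eq (QuotientGroup.mk x : H ⧸ γ.range)))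
  choose τ hτ using hτ
  have hker : ∀ (x : H) (l : L), τ x * l * (τ (x * γ l))⁻¹ ∈ A := fun x l => by
    rw [← hkerA, MonoidHom.mem_ker]
    simp [hτ, hr, mul_assoc]
  let P := Monoid.Coprod A (FreeGroup (Fin n × H))
  let e : L →* (H → P) ⋊[shiftGroup H P] H :=
    MonoidHom.mk' (fun l => ⟨fun x => Monoid.Coprod.inl ⟨_, hker x l⟩, γ l⟩) fun a b => by
      refine SemidirectProduct.ext ?_ ?_
      · funext x
        simp only [SemidirectProduct.mul_left, Pi.mul_apply]
        change Monoid.Coprod.inl (⟨_, hker x (a * b)⟩ : A) = Monoid.Coprod.inl ⟨_, hker x a⟩ *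
          Monoid.Coprod.inl ⟨_, hker (x * γ a) b⟩
        rw [← map_mul]
        congr 1
        apply Subtype.ext
        simp [mul_assoc]
      · simp
  let E := Monoid.Coprod.lift e (FreeGroup.lift fun j =>
    (⟨fun x => Monoid.Coprod.inr (FreeGroup.of (j, x)), h j⟩ : (H → P) ⋊[shiftGroup H P] H))
  have hEr : ∀ z, (E z).right = Monoid.Coprod.lift γ (FreeGroup.lift h) z := by
    intro z
    have : SemidirectProduct.rightHom.comp E = Monoid.Coprod.lift γ (FreeGroup.lift h) := by
      refine Monoid.Coprod.hom_ext ?_ (FreeGroup.ext_hom _ _ fun j => ?_)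
      · ext l; simp [E, e]
      · simp [E]
    exact DFunLike.congr_fun this z
  let B : Monoid.Coprod L (FreeGroup (Fin n)) →*
      (H → Multiplicative (Fin n × H →₀ ZMod p)) ⋊[shiftGroup H _] H :=
    MonoidHom.mk' (fun z => ⟨fun x => Multiplicative.ofAdd
        (flat p n H (single x (1 : ZMod p) • foxRow (ZMod p) γ h z)),
        (foxHom (ZMod p) γ h z).right⟩) fun a b => by
      refine SemidirectProduct.ext ?_ ?_
      · funext x
        have h2 : foxRow (ZMod p) γ h (a * b) = foxRow (ZMod p) γ h a +
            single (foxHom (ZMod p) γ h a).right (1 : ZMod p) • foxRow (ZMod p) γ h b := by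
          simp only [foxRow, map_mul, SemidirectProduct.mul_left, toAdd_mul]
          rfl
        simp only [SemidirectProduct.mul_left, Pi.mul_apply, h2, smul_add, map_add, ofAdd_add,
          smul_smul, single_mul_single, mul_one]
        rfl
      · simp
  have hB : (wreathMap (expI p A (Fin n × H))).comp E = B := by
    refine Monoid.Coprod.hom_ext ?_ (FreeGroup.ext_hom _ _ fun j => ?_)
    · refine MonoidHom.ext fun l => SemidirectProduct.ext (funext fun x => ?_) ?_
      · simp [E, e, B, expI, foxRow, foxHom]
      · simp [E, e, B, foxHom]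
    · refine SemidirectProduct.ext (funext fun x => ?_) ?_
      · apply Multiplicative.toAdd.injective
        ext ⟨a, y⟩
        rcases eq_or_ne j a with rfl | hja
        · simp [E, B, expI, flat_apply, foxRow, foxHom, Finsupp.single_apply]
        · simp [E, B, expI, flat_apply, foxRow, foxHom, hja.symm]
      · simp [E, B, foxHom]
  let W : ULift.{u} (Fin m) × H → P := fun k => (E (w k.1.down)).left k.2
  have hW : LinearIndependent (ZMod p) fun k =>
      Multiplicative.toAdd (expI p A (Fin n × H) (W k)) := by
    have hval : ∀ k, Multiplicative.toAdd (expI p A (Fin n × H) (W k)) =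
        flat p n H (single k.2 (1 : ZMod p) • foxRow (ZMod p) γ h (w k.1.down)) := fun k =>
      congrArg (fun z : (H → Multiplicative (Fin n × H →₀ ZMod p)) ⋊[shiftGroup H _] H =>
        Multiplicative.toAdd (z.left k.2))
        (DFunLike.congr_fun hB (w k.1.down))
    simp only [hval]
    let ε : MonoidAlgebra (ZMod p) H →+ ZMod p :=
      (MonoidAlgebra.lift (ZMod p) (ZMod p) H 1).toRingHom.toAddMonoidHom
    have hε : ∀ (x : H) (c : ZMod p), ε (single x c) = c := by
      intro x c
      simp [ε, MonoidAlgebra.lift_single]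
    rw [linearIndependent_iff]
    intro c hc
    let r : Fin m → MonoidAlgebra (ZMod p) H := fun a =>
      c.sum fun k t => if k.1.down = a then single k.2 t else 0
    have hr0 : r = 0 := by
      refine injective_residually_p_mod p hH (fun a j => foxRow (ZMod p) γ h (w a) j) ε hε
        (by simpa [augmentation_foxRow (ZMod p) γ h ε hε, expMatrix] using hw) r fun j => ?_
      ext y
      have := DFunLike.congr_fun hc (j, y)
      rw [Finsupp.linearCombination_apply, Finsupp.sum, Finset.sum_apply'] at this
      simp only [Finsupp.smul_apply, flat_apply, Finsupp.coe_zero, Pi.zero_apply] at this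
      rw [MonoidAlgebra.coeff_zero, Finsupp.coe_zero, Pi.zero_apply]
      refine Eq.trans ?_ this
      simp only [r, Finsupp.sum, Finset.sum_mul, ite_mul, zero_mul]
      rw [Finset.sum_comm]
      simp only [Finset.sum_ite_eq, Finset.mem_univ, if_true, coeff_sum, Finset.sum_apply']
      refine Finset.sum_congr rfl fun k _ => ?_
      simp
    ext ⟨⟨a⟩, x⟩
    have := congrArg (fun v => (v a).coeff x) hr0
    simp only [r, Finsupp.sum, coeff_sum, Finset.sum_apply'] at this
    rw [Finset.sum_eq_single (⟨a⟩, x)] at this
    · simpa using this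
    · intro k _ hk
      split_ifs with hka
      · rw [coeff_single, Finsupp.single_apply, if_neg]
        intro hkx
        exact hk (Prod.ext (ULift.ext _ _ hka) hkx)
      · rfl
    · intro hk
      simp [Finsupp.notMem_support_iff.1 hk]
  obtain ⟨N', _, i', hi', v, hv⟩ := solve_infinite p hA W hW
  let Ψ := Monoid.Coprod.lift i' (FreeGroup.lift v)
  refine ⟨(H → N') ⋊[shiftGroup H N'] H, inferInstance, (wreathMap Ψ).comp e, ?_,
    fun j => wreathMap Ψ (E (Monoid.Coprod.inr (FreeGroup.of j))), fun a => ?_⟩
  · rw [injective_iff_map_eq_one]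
    intro l hl
    have h2 : γ l = 1 := congrArg SemidirectProduct.right hl
    have h1 : i' ⟨_, hker 1 l⟩ = 1 := by
      simpa [Ψ, e] using congrFun (congrArg SemidirectProduct.left hl) 1
    have h3 : τ 1 * l * (τ (1 * γ l))⁻¹ = 1 :=
      congrArg Subtype.val (hi' (h1.trans (map_one i').symm))
    rw [h2, mul_one] at h3
    simpa using h3
  · have : Monoid.Coprod.lift ((wreathMap Ψ).comp e)
        (FreeGroup.lift fun j => wreathMap Ψ (E (Monoid.Coprod.inr (FreeGroup.of j)))) =
        (wreathMap Ψ).comp E := by
      refine Monoid.Coprod.hom_ext ?_ (FreeGroup.ext_hom _ _ fun j => ?_)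
      · ext1 l; simp [E]
      · simp
    rw [this]
    refine SemidirectProduct.ext (funext fun x => ?_) ?_
    · exact hv (⟨a⟩, x)
    · simp [hEr, hsol a]

end Extension

section Closure

/-- The property passes to subgroups (along injective homomorphisms). -/
theorem HowieModP.of_injective {p : ℕ} {G L : Type u} [Group G] [Group L] (hL : HowieModP p L)
    (f : G →* L) (hf : Function.Injective f) : HowieModP p G := by
  intro m n w hw
  obtain ⟨H, _, i, hi, h, hh⟩ := hL m n (pushSystem f w) (by rw [expMatrix_push]; exact hw)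
  exact ⟨H, inferInstance, i.comp f, hi.comp hf, h, fun a => by rw [← lift_push]; exact hh a⟩

/-- The property is local. -/
theorem HowieModP.of_local {p : ℕ} {G : Type u} [Group G]
    (hG : ∀ K : Subgroup G, K.FG → HowieModP p K) : HowieModP p G :=
  fun m n w hw => solvable_of_local w fun K hK v hv => hG K hK m n v (by rw [hv]; exact hw)

/-- The property is residual. -/
theorem HowieModP.of_residual {p : ℕ} {G : Type u} [Group G]
    (hG : ∀ g : G, g ≠ 1 → ∃ (L : Type u) (_ : Group L),
      HowieModP p L ∧ ∃ f : G →* L, f g ≠ 1) : HowieModP p G := by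
  intro m n w hw
  choose L instL hL f hf using fun g : {g : G // g ≠ 1} => hG _ g.2
  choose H hH i hi h hh using fun g : {g : G // g ≠ 1} =>
    hL g m n (pushSystem (f g) w) (by rw [expMatrix_push]; exact hw)
  refine ⟨∀ g, H g, inferInstance, MonoidHom.pi fun g => (i g).comp (f g), ?_,
    fun j g => h g j, fun a => ?_⟩
  · rw [injective_iff_map_eq_one]
    intro z hz
    by_contra hne
    exact hf ⟨z, hne⟩ (hi ⟨z, hne⟩ ((congrFun hz ⟨z, hne⟩).trans (map_one _).symm))
  · funext g
    rw [pi_lift (fun g => (i g).comp (f g)) h (w a) g, ← lift_push]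
    exact hh g a

/-- Abelian groups have the property for every prime. -/
theorem HowieModP.of_comm {p : ℕ} [Fact p.Prime] {G : Type u} [Group G]
    (hG : ∀ a b : G, a * b = b * a) : HowieModP p G := by
  intro m n w hw
  refine solve_abelian_by_residually_p p (⊤ : Subgroup G) (fun a _ b _ => hG a b) ?_ w hw
  intro x hx
  exact absurd (QuotientGroup.subsingleton_quotient_top.elim x 1) hx

/-- Groups with a finite subnormal series whose bottom term is abelian and whose other factors
are residually finite-`p`. -/
theorem HowieModP.of_series {p : ℕ} [Fact p.Prime] {G : Type u} [Group G] :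
    ∀ (k : ℕ) (S : ℕ → Subgroup G), (∀ a ∈ S 0, ∀ b ∈ S 0, a * b = b * a) →
      (∀ i < k, S i ≤ S (i + 1) ∧ ∃ _ : ((S i).subgroupOf (S (i + 1))).Normal,
        ResiduallyFiniteP p (S (i + 1) ⧸ (S i).subgroupOf (S (i + 1)))) →
      HowieModP p (S k) := by
  intro k
  induction k with
  | zero =>
    intro S h0 _
    exact HowieModP.of_comm fun a b => Subtype.ext (h0 _ a.2 _ b.2)
  | succ k ih =>
    intro S h0 hS
    obtain ⟨hle, hn, hres⟩ := hS k (Nat.lt_succ_self k)
    have hk := ih S h0 fun i hi => hS i (hi.trans (Nat.lt_succ_self k))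
    exact HowieModP.extension p _
      (hk.of_injective (Subgroup.subgroupOfEquivOfLe hle).toMonoidHom
        (Subgroup.subgroupOfEquivOfLe hle).injective) hres

end Closure

end Vale.Agent.P174.Howie
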