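import Vale.Agent.P174.HowieSolve

/-!
Finitely generated subgroups suffice, and rational rank gives mod p rank for large p.
-/

namespace Vale.Agent.P174.Howie

open Filter

universe u

variable {m n : ℕ}

/-- Systems over finitely generated subgroups of a group in the class are solvable. -/
theorem solve_local (p : ℕ) [Fact p.Prime] {G : Type u} [Group G]
    (hG : LocallyAbelianByResP p G) (K : Subgroup G) (hK : K.FG)
    (w : Fin m → Monoid.Coprod K (FreeGroup (Fin n)))
    (hw : LinearIndependent (ZMod p) (fun i j => (expMatrix w i j : ZMod p))) :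
    SolvableOver w := by
  classical
  choose L instL A hA hcomm hres f hf using fun g : {g : K // g ≠ 1} => hG K hK _ g.2
  have hsolve := fun g : {g : K // g ≠ 1} =>
    @solve_abelian_by_residually_p m n p _ (L g) (instL g) (A g) (hA g) (hcomm g) (hres g)
      (pushSystem (f g) w) (by rw [expMatrix_push]; exact hw)
  choose H hH i hi h hh using hsolve
  refine ⟨∀ g, H g, inferInstance, MonoidHom.pi fun g => (i g).comp (f g), ?_,
    fun j g => h g j, fun a => ?_⟩
  · rw [injective_iff_map_eq_one]
    intro z hz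
    by_contra hne
    exact hf ⟨z, hne⟩ (hi ⟨z, hne⟩ ((congrFun hz ⟨z, hne⟩).trans (map_one _).symm))
  · funext g
    rw [pi_lift (fun g => (i g).comp (f g)) h (w a) g, ← lift_push]
    exact hh g a

theorem exists_finset_coefficients {G : Type u} [Group G]
    (z : Monoid.Coprod G (FreeGroup (Fin n))) :
    ∃ s : Finset G, z ∈
      (Monoid.Coprod.map (Subgroup.closure (s : Set G)).subtype
        (MonoidHom.id (FreeGroup (Fin n)))).range := by
  classical
  induction z using Monoid.Coprod.induction_on with
  | inl g =>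
    exact ⟨{g}, Monoid.Coprod.inl ⟨g, Subgroup.subset_closure (by simp)⟩, by simp⟩
  | inr t => exact ⟨∅, Monoid.Coprod.inr t, by simp⟩
  | mul a b ha hb =>
    obtain ⟨s, a', rfl⟩ := ha
    obtain ⟨t, b', rfl⟩ := hb
    have hs : Subgroup.closure (s : Set G) ≤ Subgroup.closure ((s ∪ t : Finset G) : Set G) :=
      Subgroup.closure_mono (by simp)
    have ht : Subgroup.closure (t : Set G) ≤ Subgroup.closure ((s ∪ t : Finset G) : Set G) :=
      Subgroup.closure_mono (by simp)
    refine ⟨s ∪ t, Monoid.Coprod.map (Subgroup.inclusion hs) (MonoidHom.id _) a' *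
      Monoid.Coprod.map (Subgroup.inclusion ht) (MonoidHom.id _) b', ?_⟩
    rw [map_mul, ← MonoidHom.comp_apply, ← MonoidHom.comp_apply, Monoid.Coprod.map_comp_map,
      Monoid.Coprod.map_comp_map]
    rfl

/-- Solvability passes from finitely generated coefficient subgroups to the whole group. -/
theorem solvable_of_local {G : Type u} [Group G] (w : Fin m → Monoid.Coprod G (FreeGroup (Fin n)))
    (hloc : ∀ K : Subgroup G, K.FG → ∀ v : Fin m → Monoid.Coprod K (FreeGroup (Fin n)),
      expMatrix v = expMatrix w → SolvableOver v) :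
    SolvableOver w := by
  classical
  choose s hs using fun a => exists_finset_coefficients (w a)
  let s0 : Finset G := Finset.univ.biUnion s
  let K0 : Subgroup G := Subgroup.closure (s0 : Set G)
  have hlift : ∀ a, ∃ v : Monoid.Coprod K0 (FreeGroup (Fin n)),
      Monoid.Coprod.map K0.subtype (MonoidHom.id _) v = w a := by
    intro a
    obtain ⟨v, hv⟩ := hs a
    have hle : Subgroup.closure (s a : Set G) ≤ K0 :=
      Subgroup.closure_mono (Finset.coe_subset.2 (Finset.subset_biUnion_of_mem s (Finset.mem_univ a)))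
    refine ⟨Monoid.Coprod.map (Subgroup.inclusion hle) (MonoidHom.id _) v, ?_⟩
    rw [← hv, ← MonoidHom.comp_apply, Monoid.Coprod.map_comp_map]
    rfl
  choose w0 hw0 using hlift
  let K : Finset G → Subgroup G := fun t => Subgroup.closure ((s0 ∪ t : Finset G) : Set G)
  have hle : ∀ t, K0 ≤ K t := fun t => Subgroup.closure_mono (by simp)
  let wt : ∀ t, Fin m → Monoid.Coprod (K t) (FreeGroup (Fin n)) :=
    fun t => pushSystem (Subgroup.inclusion (hle t)) w0
  have hexp : ∀ t, expMatrix (wt t) = expMatrix w := by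
    intro t
    have : w = pushSystem K0.subtype w0 := funext fun a => (hw0 a).symm
    rw [expMatrix_push, this, expMatrix_push]
  choose H hH f hf h hh using fun t => hloc (K t) ⟨_, rfl⟩ (wt t) (hexp t)
  let N : Subgroup (∀ t, H t) :=
    { carrier := {x | ∀ᶠ t in atTop, x t = 1}
      one_mem' := Eventually.of_forall fun _ => rfl
      mul_mem' := fun {a b} ha hb => (ha.and hb).mono fun t ht => by simp [ht.1, ht.2]
      inv_mem' := fun {a} ha => ha.mono fun t ht => by simp [ht] }
  have hN : N.Normal := ⟨fun a ha g => ha.mono fun t ht => by simp [ht]⟩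
  let i0 : G → ∀ t, H t := fun g t => if hg : g ∈ K t then f t ⟨g, hg⟩ else 1
  have hev : ∀ g : G, ∀ᶠ t in atTop, g ∈ K t := by
    intro g
    refine eventually_atTop.2 ⟨{g}, fun t ht => Subgroup.subset_closure ?_⟩
    simp only [Finset.coe_union, Set.mem_union, Finset.mem_coe]
    exact Or.inr (ht (by simp))
  let i : G →* (∀ t, H t) ⧸ N := MonoidHom.mk' (fun g => QuotientGroup.mk (i0 g)) fun a b => by
    rw [← QuotientGroup.mk_mul, QuotientGroup.eq]
    refine ((hev a).and (hev b)).mono fun t ht => ?_
    simp only [Pi.mul_apply, Pi.inv_apply, i0, dif_pos ht.1, dif_pos ht.2,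
      dif_pos (mul_mem ht.1 ht.2)]
    rw [← map_mul (f t) ⟨a, ht.1⟩ ⟨b, ht.2⟩]
    exact inv_mul_cancel _
  refine ⟨(∀ t, H t) ⧸ N, inferInstance, i, ?_,
    fun j => QuotientGroup.mk fun t => h t j, fun a => ?_⟩
  · rw [injective_iff_map_eq_one]
    intro g hg
    have h1 : ∀ᶠ t in atTop, i0 g t = 1 := (QuotientGroup.eq_one_iff _).1 hg
    obtain ⟨t, ht1, ht2⟩ := (h1.and (hev g)).exists
    simp only [i0, dif_pos ht2] at ht1
    exact congrArg Subtype.val (hf t (ht1.trans (map_one _).symm))
  · let ft : ∀ t, K0 →* H t := fun t => (f t).comp (Subgroup.inclusion (hle t))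
    have hcomm : (Monoid.Coprod.lift i
          (FreeGroup.lift fun j => (QuotientGroup.mk fun t => h t j : (∀ t, H t) ⧸ N))).comp
          (Monoid.Coprod.map K0.subtype (MonoidHom.id _)) =
        (QuotientGroup.mk' N).comp
          (Monoid.Coprod.lift (MonoidHom.pi ft) (FreeGroup.lift fun j t => h t j)) := by
      refine Monoid.Coprod.hom_ext ?_ (FreeGroup.ext_hom _ _ fun j => ?_)
      · ext k
        simp only [MonoidHom.comp_apply, Monoid.Coprod.map_apply_inl, Monoid.Coprod.lift_apply_inl,
          QuotientGroup.mk'_apply]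
        refine congrArg QuotientGroup.mk (funext fun t => ?_)
        change (if hg : (k : G) ∈ K t then f t ⟨k, hg⟩ else 1) = _
        rw [dif_pos (hle t k.2)]
        rfl
      · simp
    rw [← hw0 a, ← MonoidHom.comp_apply, hcomm, MonoidHom.comp_apply, QuotientGroup.mk'_apply,
      ← QuotientGroup.mk_one]
    refine congrArg QuotientGroup.mk (funext fun t => ?_)
    rw [pi_lift ft h (w0 a) t, ← lift_push]
    exact hh t a

theorem solve_class (p : ℕ) [Fact p.Prime] {G : Type u} [Group G]
    (hG : LocallyAbelianByResP p G) (w : Fin m → Monoid.Coprod G (FreeGroup (Fin n)))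
    (hw : LinearIndependent (ZMod p) (fun i j => (expMatrix w i j : ZMod p))) :
    SolvableOver w :=
  solvable_of_local w fun K hK v hv => solve_local p hG K hK v (by rw [hv]; exact hw)

/-- Rows independent over the rationals are independent mod every large prime. -/
theorem independent_mod_large_prime (A : Fin m → Fin n → ℤ)
    (hA : LinearIndependent ℚ (fun i j => (A i j : ℚ))) :
    ∃ N : ℕ, ∀ p : ℕ, N < p → p.Prime →
      LinearIndependent (ZMod p) (fun i j => (A i j : ZMod p)) := by
  classical
  let T : (Fin m → ℚ) →ₗ[ℚ] (Fin n → ℚ) :=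
    Fintype.linearCombination ℚ (fun i j => (A i j : ℚ))
  obtain ⟨S, hS⟩ := T.exists_leftInverse_of_injective
    (LinearMap.ker_eq_bot.2 hA.fintypeLinearCombination_injective)
  let b : Fin n → Fin m → ℚ := fun j k => S (Pi.single j 1) k
  have hb : ∀ i k, ∑ j, (A i j : ℚ) * b j k = if i = k then 1 else 0 := by
    intro i k
    have h1 : S (fun j => (A i j : ℚ)) = Pi.single i 1 := by
      have h2 := LinearMap.congr_fun hS (Pi.single i 1)
      simpa [T, Fintype.linearCombination_apply, Pi.single_apply] using h2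
    have h3 : (fun j => (A i j : ℚ)) = ∑ j, (A i j : ℚ) • Pi.single j (1 : ℚ) := by
      funext j
      simp [Finset.sum_apply, Pi.single_apply]
    have h4 := congrFun h1 k
    rw [h3, map_sum] at h4
    simpa [Finset.sum_apply, Pi.single_apply, b, eq_comm] using h4
  let d : ℕ := ∏ j, ∏ k, (b j k).den
  have hd : 0 < d := Finset.prod_pos fun j _ => Finset.prod_pos fun k _ => (b j k).den_pos
  have hint : ∀ j k, ∃ z : ℤ, (z : ℚ) = (d : ℚ) * b j k := by
    intro j k
    have hdvd : (b j k).den ∣ d :=
      (Finset.dvd_prod_of_mem (fun k => (b j k).den) (Finset.mem_univ k)).trans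
        (Finset.dvd_prod_of_mem (fun j => ∏ k, (b j k).den) (Finset.mem_univ j))
    obtain ⟨e, he⟩ := hdvd
    refine ⟨(e : ℤ) * (b j k).num, ?_⟩
    rw [he, Nat.cast_mul, Int.cast_mul, Int.cast_natCast, mul_comm ((b j k).den : ℚ),
      mul_assoc, Rat.den_mul_eq_num]
  choose B hB using hint
  have hAB : ∀ i k, ∑ j, A i j * B j k = if i = k then (d : ℤ) else 0 := by
    intro i k
    have : ((∑ j, A i j * B j k : ℤ) : ℚ) = (((if i = k then (d : ℤ) else 0) : ℤ) : ℚ) := by
      push_cast
      simp only [hB, mul_left_comm _ (d : ℚ)]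
      rw [← Finset.mul_sum, hb]
      split_ifs <;> simp
    exact_mod_cast this
  refine ⟨d, fun p hp hpp => ?_⟩
  have := Fact.mk hpp
  have hd0 : (d : ZMod p) ≠ 0 := by
    rw [Ne, ZMod.natCast_eq_zero_iff]
    exact fun h => absurd (Nat.le_of_dvd hd h) (not_le.2 hp)
  rw [Fintype.linearIndependent_iff]
  intro c hc k
  have h1 : ∀ j, ∑ i, c i * (A i j : ZMod p) = 0 := fun j => by
    simpa [Finset.sum_apply] using congrFun hc j
  have h2 : ∑ j, (∑ i, c i * (A i j : ZMod p)) * (B j k : ZMod p) = c k * d := by
    simp only [Finset.sum_mul, mul_assoc]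
    rw [Finset.sum_comm]
    have h3 : ∀ i, ∑ j, (A i j : ZMod p) * (B j k : ZMod p) =
        if i = k then (d : ZMod p) else 0 := by
      intro i
      have := congrArg (fun z : ℤ => (z : ZMod p)) (hAB i k)
      simpa [apply_ite] using this
    simp [← Finset.mul_sum, h3]
  simp only [h1, zero_mul, Finset.sum_const_zero] at h2
  exact (mul_eq_zero.1 h2.symm).resolve_right hd0

end Vale.Agent.P174.Howie
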