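import Vale.Agent.P174.HowieDefs

/-!
Matrices over the group algebra of a residually finite-p group whose augmentation has
independent rows mod p act injectively on rows.
-/

namespace Vale.Agent.P174.Howie

open MonoidAlgebra

universe u

variable {m n : ℕ}

theorem smul_eq_mul_const_of_fixed {K : Type} [CommRing K] {P : Type u} [Group P] [Fintype P]
    (ε : MonoidAlgebra K P →+ K) (hε : ∀ (x : P) (k : K), ε (single x k) = k)
    (r : MonoidAlgebra K P) (hr : ∀ x : P, single x (1 : K) * r = r)
    (v : MonoidAlgebra K P) :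
    (r * v).coeff 1 = r.coeff 1 * ε v := by
  have hc : ∀ y : P, r.coeff y = r.coeff 1 := by
    intro y
    calc r.coeff y = (single y (1 : K) * r).coeff y := by rw [hr]
      _ = r.coeff 1 := by simp
  let φ : MonoidAlgebra K P →+ K :=
    ((Finsupp.applyAddHom (1 : P)).comp coeffAddEquiv.toAddMonoidHom).comp
      (AddMonoidHom.mulLeft r)
  let ψ : MonoidAlgebra K P →+ K := (AddMonoidHom.mulLeft (r.coeff 1)).comp ε
  have : φ = ψ := by
    refine MonoidAlgebra.addMonoidHom_ext ?_
    intro x k
    change (r * single x k).coeff 1 = r.coeff 1 * ε (single x k)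
    rw [hε]
    simp [hc x⁻¹]
  exact DFunLike.congr_fun this v

theorem injective_finite_p (p : ℕ) [Fact p.Prime] {P : Type u} [Group P] [Finite P]
    (hP : IsPGroup p P) (J : Fin m → Fin n → MonoidAlgebra (ZMod p) P)
    (ε : MonoidAlgebra (ZMod p) P →+ ZMod p)
    (hε : ∀ (x : P) (k : ZMod p), ε (single x k) = k)
    (hrows : LinearIndependent (ZMod p) fun i j => ε (J i j))
    (r : Fin m → MonoidAlgebra (ZMod p) P) (hr : ∀ j, ∑ i, r i * J i j = 0) : r = 0 := by
  classical
  cases nonempty_fintype P
  let S : AddSubgroup (Fin m → MonoidAlgebra (ZMod p) P) :=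
    { carrier := {r | ∀ j, ∑ i, r i * J i j = 0}
      zero_mem' := by simp
      add_mem' := fun {a b} ha hb j => by simp [add_mul, Finset.sum_add_distrib, ha j, hb j]
      neg_mem' := fun {a} ha j => by simp [ha j] }
  by_contra hne
  have hmem : r ∈ S := hr
  let act : MulAction P S :=
    { smul := fun x s => ⟨fun i => single x (1 : ZMod p) * s.1 i, fun j => by
        simp only [mul_assoc]
        rw [← Finset.mul_sum, s.2 j, mul_zero]⟩
      one_smul := fun s => Subtype.ext (funext fun i => by
        change single (1 : P) (1 : ZMod p) * s.1 i = s.1 i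
        rw [← MonoidAlgebra.one_def, one_mul])
      mul_smul := fun x y s => Subtype.ext (funext fun i => by
        change single (x * y) (1 : ZMod p) * s.1 i =
          single x (1 : ZMod p) * (single y (1 : ZMod p) * s.1 i)
        rw [← mul_assoc, single_mul_single, mul_one]) }
  have : Finite (MonoidAlgebra (ZMod p) P) :=
    Finite.of_equiv _ (coeffEquiv (R := ZMod p) (M := P)).symm
  let r' : S := ⟨r, hmem⟩
  have hr' : r' ≠ 0 := fun h => hne (congrArg Subtype.val h)
  have hpr : p • r' = 0 := by
    apply Subtype.ext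
    funext i
    change p • r i = 0
    ext x
    rw [coeff_smul_apply, nsmul_eq_mul, ZMod.natCast_self, zero_mul]
    rfl
  have hord : addOrderOf r' = p := addOrderOf_eq_prime hpr hr'
  have hdvd : p ∣ Nat.card S := by
    have := addOrderOf_dvd_natCard r'
    rwa [hord] at this
  have hzero : (0 : S) ∈ MulAction.fixedPoints P S :=
    fun x => Subtype.ext (funext fun i => mul_zero (single x (1 : ZMod p)))
  obtain ⟨b, hb, hb0⟩ :=
    hP.exists_fixed_point_of_prime_dvd_card_of_fixed_point S hdvd hzero
  have hfix : ∀ i (x : P), single x (1 : ZMod p) * b.1 i = b.1 i :=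
    fun i x => congrFun (congrArg Subtype.val (hb x)) i
  have hc : ∀ j, ∑ i, (b.1 i).coeff 1 * ε (J i j) = 0 := by
    intro j
    have := congrArg (fun v : MonoidAlgebra (ZMod p) P => v.coeff 1) (b.2 j)
    simp only [coeff_sum, Finset.sum_apply', coeff_zero, Finsupp.coe_zero, Pi.zero_apply] at this
    rw [← this]
    exact Finset.sum_congr rfl fun i _ =>
      (smul_eq_mul_const_of_fixed ε hε _ (hfix i) (J i j)).symm
  have hzero' : ∀ i, (b.1 i).coeff 1 = 0 :=
    Fintype.linearIndependent_iff.1 hrows _ (by
      funext j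
      simpa [Finset.sum_apply] using hc j)
  refine hb0 (Subtype.ext (funext fun i => ?_))
  ext y
  have := congrArg (fun v : MonoidAlgebra (ZMod p) P => v.coeff y) (hfix i y)
  simp only [coeff_single_mul_apply, one_mul, inv_mul_cancel] at this
  rw [← this, hzero' i]
  rfl

theorem exists_separating (p : ℕ) [Fact p.Prime] {H : Type u} [Group H]
    (hH : ResiduallyFiniteP p H) (S : Finset H) :
    ∃ (P : Type u) (_ : Group P) (_ : Finite P), IsPGroup p P ∧
      ∃ f : H →* P, ∀ x ∈ S, ∀ y ∈ S, f x = f y → x = y := by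
  classical
  let ι := {q : S × S // (q.1.1)⁻¹ * q.2.1 ≠ 1}
  choose P instG instF hP f hf using fun q : ι => hH _ q.2
  refine ⟨∀ q, P q, inferInstance, inferInstance, ?_, MonoidHom.pi f, ?_⟩
  · have hcard : ∀ q, ∃ k, Nat.card (P q) = p ^ k := fun q => (hP q).exists_card_eq
    choose k hk using hcard
    refine IsPGroup.of_card (n := ∑ q, k q) ?_
    rw [Nat.card_pi]
    simp [hk, Finset.prod_pow_eq_pow_sum]
  · intro x hx y hy hxy
    by_contra hne
    let q : ι := ⟨(⟨x, hx⟩, ⟨y, hy⟩), by simpa [inv_mul_eq_one] using hne⟩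
    apply hf q
    have : f q x = f q y := congrFun hxy q
    change f q (x⁻¹ * y) = 1
    rw [map_mul, map_inv, this, inv_mul_cancel]

theorem injective_residually_p (p : ℕ) [Fact p.Prime] {H : Type u} [Group H]
    (hH : ResiduallyFiniteP p H) (J : Fin m → Fin n → MonoidAlgebra ℤ H)
    (ε : MonoidAlgebra ℤ H →+ ℤ) (hε : ∀ (x : H) (k : ℤ), ε (single x k) = k)
    (hrows : LinearIndependent (ZMod p) fun i j => (ε (J i j) : ZMod p))
    (r : Fin m → MonoidAlgebra ℤ H) (hr : ∀ j, ∑ i, r i * J i j = 0) : r = 0 := by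
  classical
  have hdvd : ∀ r : Fin m → MonoidAlgebra ℤ H, (∀ j, ∑ i, r i * J i j = 0) →
      ∀ i x, (p : ℤ) ∣ (r i).coeff x := by
    intro r hr i x
    by_cases hx : (r i).coeff x = 0
    · simp [hx]
    obtain ⟨P, _, _, hP, f, hf⟩ :=
      exists_separating p hH (Finset.univ.biUnion fun k => (r k).coeff.support)
    let g := (MonoidAlgebra.lift ℤ (MonoidAlgebra (ZMod p) P) H
      ((MonoidAlgebra.of (ZMod p) P).comp f)).toRingHom
    have hg : ∀ (y : H) (k : ℤ), g (single y k) = single (f y) (k : ZMod p) := by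
      intro y k
      simp [g, MonoidAlgebra.lift_single]
    let δ : MonoidAlgebra (ZMod p) P →+ ZMod p :=
      (MonoidAlgebra.lift (ZMod p) (ZMod p) P 1).toRingHom.toAddMonoidHom
    have hδ : ∀ (y : P) (k : ZMod p), δ (single y k) = k := by
      intro y k
      simp [δ, MonoidAlgebra.lift_single]
    have hδg : ∀ v, δ (g v) = (ε v : ZMod p) := by
      intro v
      have : δ.comp g.toAddMonoidHom = (Int.castAddHom (ZMod p)).comp ε := by
        refine MonoidAlgebra.addMonoidHom_ext ?_
        intro y k
        simp [hg, hδ, hε]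
      exact DFunLike.congr_fun this v
    have hzero := injective_finite_p p hP (fun a b => g (J a b)) δ hδ
      (by simpa [hδg] using hrows) (fun a => g (r a)) (fun j => by
        have := congrArg g (hr j)
        simpa [map_sum, map_mul] using this)
    have h1 : (g (r i)).coeff (f x) = ((r i).coeff x : ZMod p) := by
      conv_lhs => rw [← MonoidAlgebra.sum_coeff_single (r i)]
      rw [Finsupp.sum, map_sum, coeff_sum, Finset.sum_apply']
      rw [Finset.sum_eq_single x]
      · simp [hg]
      · intro y hy hyx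
        rw [hg, coeff_single, Finsupp.single_apply, if_neg]
        intro h
        exact hyx (hf y (Finset.mem_biUnion.2 ⟨i, Finset.mem_univ _, hy⟩) x
          (Finset.mem_biUnion.2 ⟨i, Finset.mem_univ _, Finsupp.mem_support_iff.2 hx⟩) h)
      · intro h
        simp [Finsupp.notMem_support_iff.1 h]
    rw [← ZMod.intCast_zmod_eq_zero_iff_dvd, ← h1]
    have h2 : g (r i) = 0 := congrFun hzero i
    rw [h2]
    rfl
  have hpow : ∀ k : ℕ, ∀ r : Fin m → MonoidAlgebra ℤ H, (∀ j, ∑ i, r i * J i j = 0) →
      ∀ i x, (p : ℤ) ^ k ∣ (r i).coeff x := by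
    intro k
    induction k with
    | zero => simp
    | succ k ih =>
      intro r hr i x
      let r' : Fin m → MonoidAlgebra ℤ H := fun a =>
        ofCoeff ((r a).coeff.mapRange (fun t => t / (p : ℤ)) (by simp))
      have hrr : ∀ a, r a = (p : ℤ) • r' a := by
        intro a
        ext y
        rw [coeff_smul_apply]
        simp [r', Int.mul_ediv_cancel' (hdvd r hr a y)]
      have hr' : ∀ j, ∑ a, r' a * J a j = 0 := by
        intro j
        have h : (p : ℤ) • ∑ a, r' a * J a j = 0 := by
          rw [Finset.smul_sum, ← hr j]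
          exact Finset.sum_congr rfl fun a _ => by rw [hrr a, smul_mul_assoc]
        ext y
        have hy := congrArg (fun v : MonoidAlgebra ℤ H => v.coeff y) h
        simp only [coeff_smul_apply, coeff_zero, Finsupp.coe_zero, Pi.zero_apply, smul_eq_mul,
          mul_eq_zero] at hy
        exact hy.resolve_left (Int.natCast_ne_zero.2 (Fact.out : p.Prime).ne_zero)
      rw [hrr i, coeff_smul_apply, smul_eq_mul, pow_succ']
      exact mul_dvd_mul_left _ (ih r' hr' i x)
  funext i
  ext x
  change (r i).coeff x = 0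
  set a := (r i).coeff x with ha
  refine Int.eq_zero_of_dvd_of_natAbs_lt_natAbs (hpow (a.natAbs + 1) r hr i x) ?_
  rw [Int.natAbs_pow, Int.natAbs_natCast]
  exact lt_trans (Nat.lt_succ_self _) (Nat.lt_pow_self (Fact.out : p.Prime).one_lt)

end Vale.Agent.P174.Howie
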