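import Vale.Agent.P174.HowieStep
import Vale.Agent.P174.HowieInjective

/-!
Solutions over finite p-groups, residually finite-p groups and abelian extensions of them.
-/

namespace Vale.Agent.P174.Howie

open MonoidAlgebra

universe u

variable {m n : ℕ}

/-- Transport of a system along a homomorphism of coefficients. -/
noncomputable def pushSystem {G G' : Type u} [Group G] [Group G'] (f : G →* G')
    (w : Fin m → Monoid.Coprod G (FreeGroup (Fin n))) :
    Fin m → Monoid.Coprod G' (FreeGroup (Fin n)) :=
  fun i => Monoid.Coprod.map f (MonoidHom.id _) (w i)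

theorem expHom_map {G G' : Type u} [Group G] [Group G'] (f : G →* G')
    (z : Monoid.Coprod G (FreeGroup (Fin n))) :
    expHom G' n (Monoid.Coprod.map f (MonoidHom.id _) z) = expHom G n z := by
  have : (expHom G' n).comp (Monoid.Coprod.map f (MonoidHom.id _)) = expHom G n := by
    refine Monoid.Coprod.hom_ext ?_ ?_ <;> ext <;> simp [expHom]
  exact DFunLike.congr_fun this z

theorem expMatrix_push {G G' : Type u} [Group G] [Group G'] (f : G →* G')
    (w : Fin m → Monoid.Coprod G (FreeGroup (Fin n))) :
    expMatrix (pushSystem f w) = expMatrix w := by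
  funext i j
  simp [expMatrix, pushSystem, expHom_map]

theorem lift_push {G G' H : Type u} [Group G] [Group G'] [Group H] (f : G →* G') (i : G' →* H)
    (h : Fin n → H) (z : Monoid.Coprod G (FreeGroup (Fin n))) :
    Monoid.Coprod.lift i (FreeGroup.lift h) (Monoid.Coprod.map f (MonoidHom.id _) z) =
      Monoid.Coprod.lift (i.comp f) (FreeGroup.lift h) z := by
  have : (Monoid.Coprod.lift i (FreeGroup.lift h)).comp (Monoid.Coprod.map f (MonoidHom.id _)) =
      Monoid.Coprod.lift (i.comp f) (FreeGroup.lift h) := by
    refine Monoid.Coprod.hom_ext ?_ ?_ <;> ext <;> simp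
  exact DFunLike.congr_fun this z

theorem pi_lift {ι : Type u} {G : Type u} [Group G] {H : ι → Type u} [∀ a, Group (H a)]
    (i : ∀ a, G →* H a) (h : ∀ a, Fin n → H a) (z : Monoid.Coprod G (FreeGroup (Fin n))) (a : ι) :
    Monoid.Coprod.lift (MonoidHom.pi i) (FreeGroup.lift fun j b => h b j) z a =
      Monoid.Coprod.lift (i a) (FreeGroup.lift (h a)) z := by
  have : (Pi.evalMonoidHom H a).comp
      (Monoid.Coprod.lift (MonoidHom.pi i) (FreeGroup.lift fun j b => h b j)) =
        Monoid.Coprod.lift (i a) (FreeGroup.lift (h a)) := by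
    refine Monoid.Coprod.hom_ext ?_ ?_ <;> ext <;> simp
  exact DFunLike.congr_fun this z

/-- Nonsingular mod p systems over a finite p-group have solutions in a finite p-group. -/
theorem solve_finite_p (p : ℕ) [Fact p.Prime] :
    ∀ (k : ℕ) (G : Type u) [Group G] [Finite G], Nat.card G ≤ k → IsPGroup p G →
      ∀ w : Fin m → Monoid.Coprod G (FreeGroup (Fin n)),
      LinearIndependent (ZMod p) (fun i j => (expMatrix w i j : ZMod p)) →
      ∃ (H : Type u) (_ : Group H) (_ : Finite H), IsPGroup p H ∧
        ∃ i : G →* H, Function.Injective i ∧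
          ∃ h : Fin n → H, ∀ a, Monoid.Coprod.lift i (FreeGroup.lift h) (w a) = 1 := by
  intro k
  induction k with
  | zero =>
    intro G _ _ hk
    exact absurd hk (by have := Nat.card_pos (α := G); omega)
  | succ k ih =>
    intro G _ _ hk hG w hw
    classical
    by_cases hsub : Subsingleton G
    · refine ⟨G, inferInstance, inferInstance, hG, MonoidHom.id G, fun _ _ h => h,
        fun _ => 1, fun a => Subsingleton.elim _ _⟩
    have : Nontrivial G := not_subsingleton_iff_nontrivial.1 hsub
    have := hG.center_nontrivial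
    obtain ⟨t, ht⟩ := exists_prime_orderOf_dvd_card' (G := Subgroup.center G) p (by
      obtain ⟨s, hs0, hs⟩ := (hG.to_subgroup (Subgroup.center G)).nontrivial_iff_card.mp this
      rw [hs]
      exact dvd_pow_self p hs0.ne')
    let Z : Subgroup G := Subgroup.zpowers (t : G)
    have hZ : Z.Normal := ⟨fun a ha g => by
      obtain ⟨e, rfl⟩ := Subgroup.mem_zpowers_iff.1 ha
      have hc : (t : G) ^ e ∈ Subgroup.center G := zpow_mem t.2 e
      rw [Subgroup.mem_center_iff.1 hc g, mul_inv_cancel_right]
      exact Subgroup.zpow_mem _ (Subgroup.mem_zpowers _) e⟩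
    have hZcard : Nat.card Z = p := by
      rw [Nat.card_zpowers, ← Subgroup.orderOf_coe] at *
      exact ht
    have hlt : Nat.card (G ⧸ Z) ≤ k := by
      have h1 := Subgroup.card_eq_card_quotient_mul_card_subgroup Z
      have h2 : 0 < Nat.card (G ⧸ Z) := Nat.card_pos
      have h3 := (Fact.out : p.Prime).two_le
      rw [hZcard] at h1
      nlinarith
    obtain ⟨H, _, _, hH, i, hi, h, hh⟩ := ih (G ⧸ Z) hlt (hG.to_quotient Z)
      (pushSystem (QuotientGroup.mk' Z) w) (by rw [expMatrix_push]; exact hw)
    let γ : G →* H := i.comp (QuotientGroup.mk' Z)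
    have hsol : ∀ a, Monoid.Coprod.lift γ (FreeGroup.lift h) (w a) = 1 := fun a => by
      rw [← lift_push]
      exact hh a
    have hker : γ.ker = Z := by
      ext x
      simp [γ, MonoidHom.mem_ker, map_eq_one_iff i hi, QuotientGroup.eq_one_iff]
    let e0 : γ.ker ≃* Multiplicative (ZMod p) :=
      mulEquivOfPrimeCardEq (p := p) (by rw [hker]; exact hZcard)
        (by rw [Nat.card_congr Multiplicative.toAdd, Nat.card_zmod])
    let lifted : Multiplicative (ZMod p) →* Multiplicative (ULift.{u} (ZMod p)) :=
      AddMonoidHom.toMultiplicative (AddEquiv.ulift.symm : ZMod p ≃+ ULift.{u} (ZMod p)).toAddMonoidHom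
    have hlifted : Function.Injective lifted := fun a b hab => by
      have := congrArg (fun c => (Multiplicative.toAdd c).down) hab
      exact Multiplicative.toAdd.injective this
    have hlin : ∀ c : Fin m → H → ULift.{u} (ZMod p),
        ∃ Φ : (Fin n → MonoidAlgebra (ZMod p) H) →+ ULift.{u} (ZMod p),
          ∀ a x, Φ (single x (1 : ZMod p) • foxRow (ZMod p) γ h (w a)) = c a x := by
      intro c
      let ε : MonoidAlgebra (ZMod p) H →+ ZMod p :=
        (MonoidAlgebra.lift (ZMod p) (ZMod p) H 1).toRingHom.toAddMonoidHom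
      have hε : ∀ (x : H) (r : ZMod p), ε (single x r) = r := by
        intro x r
        simp [ε, MonoidAlgebra.lift_single]
      let T : (Fin m → MonoidAlgebra (ZMod p) H) →ₗ[ZMod p] (Fin n → MonoidAlgebra (ZMod p) H) :=
        { toFun := fun r j => ∑ a, r a * foxRow (ZMod p) γ h (w a) j
          map_add' := fun r s => by funext j; simp [add_mul, Finset.sum_add_distrib]
          map_smul' := fun c r => by funext j; simp [Finset.smul_sum] }
      have hT : LinearMap.ker T = ⊥ := LinearMap.ker_eq_bot'.2 fun r hr =>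
        injective_finite_p p hH (fun a j => foxRow (ZMod p) γ h (w a) j) ε hε
          (by simpa [augmentation_foxRow (ZMod p) γ h ε hε, expMatrix] using hw) r
          (fun j => congrFun hr j)
      obtain ⟨S, hS⟩ := T.exists_leftInverse_of_injective hT
      let φ : (Fin m → MonoidAlgebra (ZMod p) H) →ₗ[ZMod p] ULift.{u} (ZMod p) :=
        ∑ a, ((Finsupp.linearCombination (ZMod p) (c a)).comp
          (coeffLinearEquiv (ZMod p)).toLinearMap).comp (LinearMap.proj a)
      refine ⟨(φ.comp S).toAddMonoidHom, fun a x => ?_⟩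
      have hx : single x (1 : ZMod p) • foxRow (ZMod p) γ h (w a) =
          T (Pi.single a (single x (1 : ZMod p))) := by
        funext j
        simp [T, Pi.single_apply, ite_mul]
      rw [hx]
      change φ (S (T _)) = _
      have hST : ∀ r, S (T r) = r := fun r => LinearMap.congr_fun hS r
      rw [hST]
      have hco : ∀ z : MonoidAlgebra (ZMod p) H, coeffLinearEquiv (ZMod p) z = z.coeff :=
        fun z => rfl
      simp [φ, Pi.single_apply, apply_ite, hco]
    obtain ⟨e, he, h', hh'⟩ := step (ZMod p) γ h w hsol (lifted.comp e0.toMonoidHom)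
      (hlifted.comp e0.injective) hlin
    refine ⟨_, inferInstance, Finite.of_equiv _ SemidirectProduct.equivProd.symm, ?_,
      e, he, h', hh'⟩
    obtain ⟨s, hs⟩ := hH.exists_card_eq
    refine IsPGroup.of_card (n := Nat.card H + s) ?_
    rw [Nat.card_congr SemidirectProduct.equivProd, Nat.card_prod, Nat.card_fun,
      Nat.card_congr Multiplicative.toAdd, Nat.card_congr Equiv.ulift, Nat.card_zmod, hs, pow_add]

/-- Nonsingular mod p systems over residually finite-p groups have residually finite-p solutions. -/
theorem solve_residually_p (p : ℕ) [Fact p.Prime] {Q : Type u} [Group Q]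
    (hQ : ResiduallyFiniteP p Q) (w : Fin m → Monoid.Coprod Q (FreeGroup (Fin n)))
    (hw : LinearIndependent (ZMod p) (fun i j => (expMatrix w i j : ZMod p))) :
    ∃ (H : Type u) (_ : Group H), ResiduallyFiniteP p H ∧
      ∃ i : Q →* H, Function.Injective i ∧
        ∃ h : Fin n → H, ∀ a, Monoid.Coprod.lift i (FreeGroup.lift h) (w a) = 1 := by
  classical
  choose P instG instF hP f hf using fun x : {x : Q // x ≠ 1} => hQ _ x.2
  have hsolve := fun x : {x : Q // x ≠ 1} =>
    solve_finite_p p (Nat.card (P x)) (P x) le_rfl (hP x) (pushSystem (f x) w)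
      (by rw [expMatrix_push]; exact hw)
  choose H hG hF hH i hi h hh using hsolve
  refine ⟨∀ x, H x, inferInstance, fun z hz => ?_, MonoidHom.pi fun x => (i x).comp (f x), ?_,
    fun j x => h x j, fun a => ?_⟩
  · obtain ⟨x, hx⟩ := Function.ne_iff.1 hz
    exact ⟨H x, hG x, hF x, hH x, Pi.evalMonoidHom H x, hx⟩
  · rw [injective_iff_map_eq_one]
    intro z hz
    by_contra hne
    exact hf ⟨z, hne⟩ (hi ⟨z, hne⟩ ((congrFun hz ⟨z, hne⟩).trans (map_one _).symm))
  · funext x
    rw [pi_lift (fun x => (i x).comp (f x)) h (w a) x, ← lift_push]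
    exact hh x a

/-- Nonsingular mod p systems over abelian extensions of residually finite-p groups. -/
theorem solve_abelian_by_residually_p (p : ℕ) [Fact p.Prime] {L : Type u} [Group L]
    (A : Subgroup L) [A.Normal] (hA : ∀ a ∈ A, ∀ b ∈ A, a * b = b * a)
    (hQ : ResiduallyFiniteP p (L ⧸ A)) (w : Fin m → Monoid.Coprod L (FreeGroup (Fin n)))
    (hw : LinearIndependent (ZMod p) (fun i j => (expMatrix w i j : ZMod p))) :
    SolvableOver w := by
  classical
  obtain ⟨H, _, hH, i, hi, h, hh⟩ := solve_residually_p p hQ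
    (pushSystem (QuotientGroup.mk' A) w) (by rw [expMatrix_push]; exact hw)
  let γ : L →* H := i.comp (QuotientGroup.mk' A)
  have hsol : ∀ a, Monoid.Coprod.lift γ (FreeGroup.lift h) (w a) = 1 := fun a => by
    rw [← lift_push]
    exact hh a
  have hker : ∀ x, x ∈ γ.ker ↔ x ∈ A := by
    intro x
    simp [γ, MonoidHom.mem_ker, map_eq_one_iff i hi, QuotientGroup.eq_one_iff]
  let : CommGroup γ.ker :=
    { (inferInstance : Group γ.ker) with
      mul_comm := fun a b => Subtype.ext (hA _ ((hker _).1 a.2) _ ((hker _).1 b.2)) }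
  let M := Additive γ.ker
  let D := CharacterModule M → AddCircle (1 : ℚ)
  let ι : M →+ D :=
    { toFun := fun a χ => χ a
      map_zero' := funext fun χ => map_zero χ
      map_add' := fun a b => funext fun χ => map_add χ a b }
  have hι : Function.Injective ι := by
    rw [injective_iff_map_eq_zero]
    intro a ha
    by_contra hne
    obtain ⟨χ, hχ⟩ := CharacterModule.exists_character_apply_ne_zero_of_ne_zero hne
    exact hχ (congrFun ha χ)
  have hlin : ∀ c : Fin m → H → D, ∃ Φ : (Fin n → MonoidAlgebra ℤ H) →+ D,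
      ∀ a x, Φ (single x (1 : ℤ) • foxRow ℤ γ h (w a)) = c a x := by
    intro c
    let ε : MonoidAlgebra ℤ H →+ ℤ :=
      (MonoidAlgebra.lift ℤ ℤ H 1).toRingHom.toAddMonoidHom
    have hε : ∀ (x : H) (r : ℤ), ε (single x r) = r := by
      intro x r
      simp [ε, MonoidAlgebra.lift_single]
    let T : (Fin m → MonoidAlgebra ℤ H) →+ (Fin n → MonoidAlgebra ℤ H) :=
      { toFun := fun r j => ∑ a, r a * foxRow ℤ γ h (w a) j
        map_zero' := by funext j; simp
        map_add' := fun r s => by funext j; simp [add_mul, Finset.sum_add_distrib] }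
    have hT : Function.Injective T := (injective_iff_map_eq_zero T).2 fun r hr =>
      injective_residually_p p hH (fun a j => foxRow ℤ γ h (w a) j) ε hε
        (by simpa [augmentation_foxRow ℤ γ h ε hε, expMatrix] using hw) r
        (fun j => congrFun hr j)
    let φ : (Fin m → MonoidAlgebra ℤ H) →+ D :=
      ∑ a, ((Finsupp.liftAddHom fun x => zmultiplesHom D (c a x)).comp
        (coeffAddEquiv (R := ℤ) (M := H)).toAddMonoidHom).comp (Pi.evalAddMonoidHom _ a)
    obtain ⟨Φ, hΦ⟩ := (Module.Baer.of_divisible D).extension_property_addMonoidHom T hT φ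
    refine ⟨Φ, fun a x => ?_⟩
    have hx : single x (1 : ℤ) • foxRow ℤ γ h (w a) =
        T (Pi.single a (single x (1 : ℤ))) := by
      funext j
      simp [T, Pi.single_apply, ite_mul]
    rw [hx, ← AddMonoidHom.comp_apply, hΦ]
    have hco : ∀ z : MonoidAlgebra ℤ H, coeffAddEquiv z = z.coeff := fun z => rfl
    simp [φ, Pi.single_apply, apply_ite, hco]
  let ι' : γ.ker →* Multiplicative D :=
    { toFun := fun a => Multiplicative.ofAdd (ι (Additive.ofMul a))
      map_one' := by simp
      map_mul' := fun a b => by simp [ofAdd_add] }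
  have hι' : Function.Injective ι' := fun a b hab =>
    Additive.ofMul.injective (hι (Multiplicative.ofAdd.injective hab))
  obtain ⟨e, he, h', hh'⟩ := step ℤ γ h w hsol ι' hι' hlin
  exact ⟨_, inferInstance, e, he, h', hh'⟩

end Vale.Agent.P174.Howie
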