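import Vale.Agent.P174.HowieDefs

/-!
One step: lift a solution through a homomorphism with abelian kernel, using the Fox Jacobian.
-/

namespace Vale.Agent.P174.Howie

open MonoidAlgebra

universe u v

variable {m n : ℕ}

/-- Right translation on functions. -/
def shiftAut (H : Type u) [Group H] (M : Type v) [CommGroup M] : H →* MulAut (H → M) where
  toFun s :=
    { toFun := fun f x => f (x * s)
      invFun := fun f x => f (x * s⁻¹)
      left_inv := fun f => by funext x; simp
      right_inv := fun f => by funext x; simp
      map_mul' := fun f g => rfl }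
  map_one' := by ext f x; simp
  map_mul' s t := by ext f x; simp [mul_assoc]

/-- Left multiplication by group elements on tuples over the group algebra. -/
noncomputable def leftAut (H : Type u) [Group H] (K : Type v) [CommRing K] (n : ℕ) :
    H →* MulAut (Multiplicative (Fin n → MonoidAlgebra K H)) where
  toFun s :=
    { toFun := fun v => Multiplicative.ofAdd (single s (1 : K) • v.toAdd)
      invFun := fun v => Multiplicative.ofAdd (single s⁻¹ (1 : K) • v.toAdd)
      left_inv := fun v => by simp [smul_smul, single_mul_single, ← MonoidAlgebra.one_def]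
      right_inv := fun v => by simp [smul_smul, single_mul_single, ← MonoidAlgebra.one_def]
      map_mul' := fun v w => by simp [smul_add, ofAdd_add] }
  map_one' := by ext v; simp [← MonoidAlgebra.one_def]
  map_mul' s t := by ext v; simp [smul_smul, single_mul_single]

section

variable {L H : Type u} [Group L] [Group H] (K : Type v) [CommRing K]
  (γ : L →* H) (h : Fin n → H)

/-- The Fox derivative cocycle as a homomorphism into a semidirect product. -/
noncomputable def foxHom : Monoid.Coprod L (FreeGroup (Fin n)) →*
    Multiplicative (Fin n → MonoidAlgebra K H) ⋊[leftAut H K n] H :=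
  Monoid.Coprod.lift (SemidirectProduct.inr.comp γ)
    (FreeGroup.lift fun j => ⟨Multiplicative.ofAdd (Pi.single j 1), h j⟩)

/-- The Fox Jacobian row of an element. -/
noncomputable def foxRow (z : Monoid.Coprod L (FreeGroup (Fin n))) :
    Fin n → MonoidAlgebra K H :=
  Multiplicative.toAdd (foxHom K γ h z).left

theorem foxHom_right (z : Monoid.Coprod L (FreeGroup (Fin n))) :
    (foxHom K γ h z).right = Monoid.Coprod.lift γ (FreeGroup.lift h) z := by
  have : SemidirectProduct.rightHom.comp (foxHom K γ h) =
      Monoid.Coprod.lift γ (FreeGroup.lift h) := by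
    refine Monoid.Coprod.hom_ext ?_ (FreeGroup.ext_hom _ _ fun j => ?_)
    · ext l; simp [foxHom]
    · simp [foxHom]
  exact DFunLike.congr_fun this z

theorem augmentation_foxRow (ε : MonoidAlgebra K H →+ K)
    (hε : ∀ (x : H) (k : K), ε (single x k) = k) (z : Monoid.Coprod L (FreeGroup (Fin n)))
    (j : Fin n) :
    ε (foxRow K γ h z j) = (Multiplicative.toAdd (expHom L n z) j : K) := by
  have hmul : ∀ (s : H) (v : MonoidAlgebra K H), ε (single s (1 : K) * v) = ε v := by
    intro s v
    have : ε.comp (AddMonoidHom.mulLeft (single s (1 : K))) = ε := by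
      refine MonoidAlgebra.addMonoidHom_ext ?_
      intro x k
      simp [single_mul_single, hε]
    exact DFunLike.congr_fun this v
  let φ : Monoid.Coprod L (FreeGroup (Fin n)) →* Multiplicative (Fin n → K) :=
    { toFun := fun z => Multiplicative.ofAdd fun j => ε (foxRow K γ h z j)
      map_one' := by
        rw [← ofAdd_zero]; congr 1; funext j; simp [foxRow]
      map_mul' := fun a b => by
        rw [← ofAdd_add]; congr 1; funext j
        simp only [foxRow, map_mul, SemidirectProduct.mul_left, toAdd_mul, Pi.add_apply, map_add]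
        exact congrArg _ (hmul _ _) }
  let ψ : Monoid.Coprod L (FreeGroup (Fin n)) →* Multiplicative (Fin n → K) :=
    (AddMonoidHom.toMultiplicative ((Int.castAddHom K).compLeft (Fin n))).comp (expHom L n)
  have : φ = ψ := by
    refine Monoid.Coprod.hom_ext ?_ (FreeGroup.ext_hom _ _ fun i => ?_)
    · ext l; simp [φ, ψ, foxRow, foxHom, expHom]
    · apply Multiplicative.toAdd.injective
      funext j
      by_cases hij : j = i
      · subst hij
        simp [φ, ψ, foxRow, foxHom, expHom, MonoidAlgebra.one_def, hε]
      · simp [φ, ψ, foxRow, foxHom, expHom, hij]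
  exact congrFun (congrArg Multiplicative.toAdd (DFunLike.congr_fun this z)) j

/-- A solution through an abelian kernel, assuming the linearised equations are solvable. -/
theorem step {D : Type u} [AddCommGroup D] (w : Fin m → Monoid.Coprod L (FreeGroup (Fin n)))
    (hsol : ∀ i, Monoid.Coprod.lift γ (FreeGroup.lift h) (w i) = 1)
    (ι : γ.ker →* Multiplicative D) (hι : Function.Injective ι)
    (hlin : ∀ c : Fin m → H → D, ∃ Φ : (Fin n → MonoidAlgebra K H) →+ D,
      ∀ i x, Φ (single x (1 : K) • foxRow K γ h (w i)) = c i x) :
    ∃ e : L →* (H → Multiplicative D) ⋊[shiftAut H (Multiplicative D)] H,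
      Function.Injective e ∧
      ∃ h' : Fin n → (H → Multiplicative D) ⋊[shiftAut H (Multiplicative D)] H,
        ∀ i, Monoid.Coprod.lift e (FreeGroup.lift h') (w i) = 1 := by
  classical
  let r : H → H := fun x => (QuotientGroup.mk x : H ⧸ γ.range).out
  have hr : ∀ (x : H) (l : L), r (x * γ l) = r x := fun x l => by
    simp only [r]
    rw [QuotientGroup.mk_mul_of_mem x (MonoidHom.mem_range.2 ⟨l, rfl⟩)]
  have hτ : ∀ x : H, ∃ l : L, γ l = (r x)⁻¹ * x := fun x =>
    MonoidHom.mem_range.1 (QuotientGroup.eq.1 (Quotient.out_eq (QuotientGroup.mk x : H ⧸ γ.range)))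
  choose τ hτ using hτ
  have hker : ∀ (x : H) (l : L), τ x * l * (τ (x * γ l))⁻¹ ∈ γ.ker := fun x l => by
    rw [MonoidHom.mem_ker]
    simp [hτ, hr, mul_assoc]
  let e : L →* (H → Multiplicative D) ⋊[shiftAut H (Multiplicative D)] H :=
    MonoidHom.mk' (fun l => ⟨fun x => ι ⟨_, hker x l⟩, γ l⟩) fun a b => by
      refine SemidirectProduct.ext ?_ ?_
      · funext x
        simp only [SemidirectProduct.mul_left, Pi.mul_apply]
        change ι ⟨_, hker x (a * b)⟩ = ι ⟨_, hker x a⟩ * ι ⟨_, hker (x * γ a) b⟩
        rw [← map_mul]
        congr 1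
        apply Subtype.ext
        simp [mul_assoc]
      · simp
  have he : Function.Injective e := by
    rw [injective_iff_map_eq_one]
    intro l hl
    have h2 : γ l = 1 := congrArg SemidirectProduct.right hl
    have h1 : ι ⟨_, hker 1 l⟩ = 1 := congrFun (congrArg SemidirectProduct.left hl) 1
    have h3 : τ 1 * l * (τ (1 * γ l))⁻¹ = 1 :=
      congrArg Subtype.val (hι (h1.trans (map_one ι).symm))
    rw [h2, mul_one] at h3
    simpa using h3
  let E0 := Monoid.Coprod.lift e (FreeGroup.lift fun j =>
    (⟨1, h j⟩ : (H → Multiplicative D) ⋊[shiftAut H (Multiplicative D)] H))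
  have hE0r : ∀ z, (E0 z).right = Monoid.Coprod.lift γ (FreeGroup.lift h) z := by
    intro z
    have : SemidirectProduct.rightHom.comp E0 = Monoid.Coprod.lift γ (FreeGroup.lift h) := by
      refine Monoid.Coprod.hom_ext ?_ (FreeGroup.ext_hom _ _ fun j => ?_)
      · ext l; simp [E0, e]
      · simp [E0]
    exact DFunLike.congr_fun this z
  obtain ⟨Φ, hΦ⟩ := hlin fun i x => -Multiplicative.toAdd ((E0 (w i)).left x)
  let E : Monoid.Coprod L (FreeGroup (Fin n)) →*
      (H → Multiplicative D) ⋊[shiftAut H (Multiplicative D)] H :=
    MonoidHom.mk' (fun z => ⟨fun x => (E0 z).left x *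
        Multiplicative.ofAdd (Φ (single x (1 : K) • foxRow K γ h z)), (E0 z).right⟩) fun a b => by
      refine SemidirectProduct.ext ?_ ?_
      · funext x
        have h1 : (foxHom K γ h a).right = (E0 a).right := by rw [foxHom_right, hE0r]
        have h2 : foxRow K γ h (a * b) =
            foxRow K γ h a + single (E0 a).right (1 : K) • foxRow K γ h b := by
          rw [← h1]
          simp only [foxRow, map_mul, SemidirectProduct.mul_left, toAdd_mul]
          rfl
        simp only [map_mul, SemidirectProduct.mul_left, Pi.mul_apply, h2, smul_add, map_add,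
          ofAdd_add, smul_smul, single_mul_single, mul_one]
        exact mul_mul_mul_comm _ _ _ _
      · simp
  have hEe : E.comp Monoid.Coprod.inl = e := by
    ext1 l
    refine SemidirectProduct.ext ?_ ?_
    · funext x
      simp [E, E0, foxRow, foxHom]
    · simp [E, E0, e]
  refine ⟨e, he, fun j => E (Monoid.Coprod.inr (FreeGroup.of j)), fun i => ?_⟩
  have hEq : Monoid.Coprod.lift e
      (FreeGroup.lift fun j => E (Monoid.Coprod.inr (FreeGroup.of j))) = E := by
    refine Monoid.Coprod.hom_ext ?_ (FreeGroup.ext_hom _ _ fun j => ?_)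
    · rw [hEe]; ext1 l; simp
    · simp
  rw [hEq]
  refine SemidirectProduct.ext ?_ ?_
  · funext x
    simp [E, hΦ i x]
  · simp [E, hE0r, hsol i]

end

end Vale.Agent.P174.Howie
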